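import Vale.Agent.P281.H740.TM.Spec
import Vale.Agent.P281.H511.Gen.Prime
import Vale.Agent.P281.H969.Gen.Fin
import Vale.Agent.P281.H64.Gen.Core

/-!
# P281, project T-M (helper747): block T7, the boundary `Γ = Δ_Θ` of the base
-/

open Set Filter Metric
open Vale.Agent.P281 Vale.Agent.P281.H713 Vale.Agent.P281.H713.TZ.S
open Vale.Agent.P281.H64.Thin (IsThinSet)
open Vale.Agent.P281.H64.Gen (IsSmallSet IsAnalyticSet)
open scoped Manifold ContDiff Topology

noncomputable section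

namespace Vale.Agent.P281.H747.TM

open Vale.Agent.P281.H740.TM

section
variable {p : ℕ} {X Z : Type} [TopologicalSpace X] [ChartedSpace (Cm (p + 1)) X]
  [IsManifold 𝓘(ℂ, Cm (p + 1)) ω X] [TopologicalSpace Z] [ChartedSpace (Cm p) Z]
  [IsManifold 𝓘(ℂ, Cm p) ω Z] {g : X → Z} {S : Set Z} {w : ℕ} {Θ : X → ℂ}

/-- two coefficients differ by a unit -/
theorem coef_iff (hg : Continuous g) (hd : Dense (g ⁻¹' S)ᶜ) {x : X} {H : X → ℂ}
    (h : IsCoef p g S w Θ x H) :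
    ∀ᶠ z in 𝓝 x, ∀ H', IsCoef p g S w Θ z H' → (H' z = 0 ↔ H z = 0) := by
  have e1 : ∀ᶠ z in 𝓝 x, z ∈ (chartAt (Cm (p + 1)) x).source :=
    (chartAt (Cm (p + 1)) x).open_source.mem_nhds (mem_chart_source _ x)
  have e2 : ∀ᶠ z in 𝓝 x, g z ∈ (chartAt (Cm p) (g x)).source :=
    hg.continuousAt.eventually
      ((chartAt (Cm p) (g x)).open_source.mem_nhds (mem_chart_source _ (g x)))
  have h1 : HolV (Cm (p + 1)) H x := h.1
  filter_upwards [e1.eventually_nhds, e2.eventually_nhds, h1.eventually,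
    eventually_eventually_nhds.2 h.2] with z hz1 hgz1 hHz hev
  have hz : z ∈ (chartAt (Cm (p + 1)) x).source := hz1.self_of_nhds
  have hgz : g z ∈ (chartAt (Cm p) (g x)).source := hgz1.self_of_nhds
  rintro H' ⟨hH', hev'⟩
  have hH'v : HolV (Cm (p + 1)) H' z := hH'
  set R : X → ℂ := fun z' => (fderiv ℂ ((chartAt (Cm (p + 1)) x : X → Cm (p + 1)) ∘
    (chartAt (Cm (p + 1)) z).symm) (chartAt (Cm (p + 1)) z z')).det with hRd
  set T : Z → ℂ := fun z' => (fderiv ℂ ((chartAt (Cm p) (g x) : Z → Cm p) ∘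
    (chartAt (Cm p) (g z)).symm) (chartAt (Cm p) (g z) z')).det with hTd
  have hR : ContinuousAt R z := MF.continuousAt_jac_ratio hz
  have hT : ContinuousAt T (g z) := MF.continuousAt_jac_ratio hgz
  have hR1 : ∀ z', z' ∈ (chartAt (Cm (p + 1)) x).source → z' ∈ (chartAt (Cm (p + 1)) z).source →
      jac (Cm (p + 1)) (chartAt (Cm (p + 1)) x) z' =
        R z' * jac (Cm (p + 1)) (chartAt (Cm (p + 1)) z) z' :=
    fun z' a b => MF.jac_chart_comp a b
  have hT1 : ∀ z', z' ∈ (chartAt (Cm p) (g x)).source → z' ∈ (chartAt (Cm p) (g z)).source →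
      jac (Cm p) (chartAt (Cm p) (g x)) z' = T z' * jac (Cm p) (chartAt (Cm p) (g z)) z' :=
    fun z' a b => MF.jac_chart_comp a b
  have hR0 : R z ≠ 0 := by
    intro h0
    have h2 := hR1 z hz (mem_chart_source _ z)
    rw [h0, zero_mul] at h2
    exact jac_chart_ne_zero hz h2
  have hT0 : T (g z) ≠ 0 := by
    intro h0
    have h2 := hT1 (g z) hgz (mem_chart_source _ (g z))
    rw [h0, zero_mul] at h2
    exact jac_chart_ne_zero hgz h2
  have key : T (g z) ^ w * H' z = H z * R z ^ w := by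
    have hc1 : ContinuousAt (fun z' => T (g z') ^ w * H' z') z :=
      ((ContinuousAt.comp (f := g) (g := T) hT hg.continuousAt).pow w).mul hH'v.continuousAt
    have hc2 : ContinuousAt (fun z' => H z' * R z' ^ w) z := hHz.continuousAt.mul (hR.pow w)
    have h3 : ∃ᶠ z' in 𝓝 z, z' ∈ (g ⁻¹' S)ᶜ := mem_closure_iff_frequently.1 (hd z)
    have e3 : ∀ᶠ z' in 𝓝 z, z' ∈ (chartAt (Cm (p + 1)) z).source :=
      (chartAt (Cm (p + 1)) z).open_source.mem_nhds (mem_chart_source _ z)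
    have e4 : ∀ᶠ z' in 𝓝 z, g z' ∈ (chartAt (Cm p) (g z)).source :=
      hg.continuousAt.eventually
        ((chartAt (Cm p) (g z)).open_source.mem_nhds (mem_chart_source _ (g z)))
    have e5 : ∀ᶠ z' in 𝓝 z, g z' ∉ S → T (g z') ^ w * H' z' = H z' * R z' ^ w := by
      filter_upwards [hz1, hgz1, hev, hev', e3, e4] with z' a1 a2 a3 a4 a5 a6 a7
      have b1 := a3 a7
      have b2 := a4 a7
      rw [hR1 z' a1 a5, hT1 (g z') a2 a6, mul_pow, mul_pow, mul_assoc, b2] at b1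
      have b3 : jac (Cm (p + 1)) (chartAt (Cm (p + 1)) z) z' ^ w ≠ 0 :=
        pow_ne_zero _ (jac_chart_ne_zero a5)
      refine mul_right_cancel₀ b3 ?_
      rw [mul_assoc, b1]
      ring
    by_contra hne
    obtain ⟨z', b1, b2, b3⟩ := (h3.and_eventually
      (((hc1.sub hc2).eventually_ne (sub_ne_zero.2 hne)).and e5)).exists
    exact b2 (sub_eq_zero.2 (b3 b1))
  constructor
  · intro h0
    rw [h0, mul_zero] at key
    exact (mul_eq_zero.1 key.symm).resolve_right (pow_ne_zero _ hR0)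
  · intro h0
    rw [h0, zero_mul] at key
    exact (mul_eq_zero.1 key).resolve_left (pow_ne_zero _ hT0)

/-- the zero set of the coefficient -/
theorem exists_zero (hg : Continuous g) (hd : Dense (g ⁻¹' S)ᶜ)
    (h : ∀ x, ∃ H, IsCoef p g S w Θ x H) :
    ∃ A : Set X, IsAnalyticSet (Cm (p + 1)) A ∧
      ∀ x H, IsCoef p g S w Θ x H → ∀ᶠ z in 𝓝 x, z ∈ A ↔ H z = 0 := by
  choose H hH using h
  have key : ∀ x H', IsCoef p g S w Θ x H' → ∀ᶠ z in 𝓝 x, z ∈ {z | H z z = 0} ↔ H' z = 0 := by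
    intro x H' hx
    filter_upwards [coef_iff hg hd hx] with z hz
    exact hz (H z) (hH z)
  refine ⟨{z | H z z = 0}, fun x => ?_, key⟩
  have h1 : HolV (Cm (p + 1)) (H x) x := (hH x).1
  obtain ⟨U, hU, hUo, hxU⟩ := eventually_nhds_iff.1 (h1.eventually.and (key x (H x) (hH x)))
  exact ⟨U, Unit, fun _ => H x, hUo, hxU, fun _ z hz => (hU z hz).1,
    fun z hz => ⟨fun a _ => (hU z hz).2.1 a, fun a => (hU z hz).2.2 (a ())⟩⟩

omit [IsManifold 𝓘(ℂ, Cm p) ω Z] in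
/-- a divisor of positive order is in the zero set -/
theorem subset_zero {A : Set X} (hA : IsAnalyticSet (Cm (p + 1)) A)
    (hAH : ∀ x H, IsCoef p g S w Θ x H → ∀ᶠ z in 𝓝 x, z ∈ A ↔ H z = 0) {E : Set X}
    (hE : J.IsPrime (Cm (p + 1)) E) {D : Set Z} {k o : ℕ} {x : X} (ho : o ≠ 0)
    (hx : GoodAt p g S w Θ E D k o x) : E ⊆ A := by
  obtain ⟨hxE, e, d, u, H, v, he, hde, -, -, -, -, -, hH, -, -, hHe, -⟩ := hx
  by_contra hcon
  have h1 := H511.Gen.subset_closure_diff hE hA hcon hxE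
  have h2 : ∀ᶠ z in 𝓝 x, z ∈ E → z ∈ A := by
    filter_upwards [H511.Gen.isLocalEq_mem_iff he, hAH x H hH, hHe] with z a1 a2 a3 a4
    rw [a2, a3, a1.1 a4, zero_pow ho, zero_mul]
  obtain ⟨z, hz, hzE, hzA⟩ := mem_closure_iff_nhds.1 h1 _ h2
  exact hzA (hz hzE.1)

omit [IsManifold 𝓘(ℂ, Cm (p + 1)) ω X] [IsManifold 𝓘(ℂ, Cm p) ω Z] in
/-- bounded part of the set of orders -/
theorem finite_le {Δ : Set X → ℝ} (hΔ0 : ∀ E, 0 ≤ Δ E) (hΔr : (range Δ).Finite) (hw : 0 < w)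
    {D : Set Z} (hO : ∀ E k o x, J.IsPrime (Cm (p + 1)) E → closure (g '' E) = D →
      GoodAt p g S w Θ E D k o x → 0 < k ∧ w * (k - 1) ≤ o) {r₁ : ℝ} (hr : r₁ < 1) :
    {r | r ∈ mset p g S w Θ Δ D ∧ r ≤ r₁}.Finite := by
  obtain ⟨N, hN⟩ := exists_nat_ge (1 / (1 - r₁))
  have hr' : 0 < 1 - r₁ := by linarith
  refine (((hΔr.prod ((Set.finite_Iic N).prod (Set.finite_Iic (w * N)))).image
    fun q : ℝ × ℕ × ℕ => (q.1 + (q.2.2 : ℝ) / w) / q.2.1)).subset ?_
  rintro r ⟨⟨E, k, o, x, hE, hED, hG, rfl⟩, hle⟩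
  obtain ⟨hk, hko⟩ := hO E k o x hE hED hG
  have hw' : (0 : ℝ) < w := by exact_mod_cast hw
  have hk' : (0 : ℝ) < k := by exact_mod_cast hk
  have h1 : ((k : ℝ) - 1) ≤ (o : ℝ) / w := by
    rw [le_div_iff₀ hw']
    have h2 : ((w * (k - 1) : ℕ) : ℝ) ≤ (o : ℝ) := by exact_mod_cast hko
    rw [Nat.cast_mul, Nat.cast_sub (by omega : 1 ≤ k), Nat.cast_one] at h2
    linarith
  have h3 : Δ E + (o : ℝ) / w ≤ r₁ * k := (div_le_iff₀ hk').1 hle
  have h4 := hΔ0 E
  have h5 : (k : ℝ) ≤ N := by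
    refine le_trans ?_ hN
    rw [le_div_iff₀ hr']
    nlinarith
  have h6 : (o : ℝ) ≤ w * N := by
    have h7 : (o : ℝ) / w ≤ k := by nlinarith
    rw [div_le_iff₀ hw'] at h7
    nlinarith
  refine ⟨(Δ E, k, o), ⟨mem_range_self E, ?_, ?_⟩, rfl⟩
  · exact_mod_cast h5
  · exact_mod_cast h6

end

/-- **T7** -/
theorem mbaseStmt (hC : CoefStmt) (hO : OrdStmt) : MBaseStmt := by
  classical
  intro p X Z _ _ _ _ _ _ g Δ S e₀ w Θ hstd hle Γ hΓ
  have hfib := hstd.fib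
  have : T2Space X := hfib.hausdorff.1
  have : T2Space Z := hfib.hausdorff.2
  have : CompactSpace X := hfib.compact
  have : ConnectedSpace X := hfib.connected
  obtain ⟨hfin, hpr, hrat, -⟩ := hfib.snc
  have hΔ0 : ∀ D, 0 ≤ Δ D := fun D => by
    obtain ⟨q, hq, h0, -⟩ := hrat D
    rw [hq]
    exact_mod_cast h0
  have hr : (range Δ).Finite := by
    refine ((hfin.image Δ).union (finite_singleton 0)).subset ?_
    rintro _ ⟨D, rfl⟩
    by_cases h : Δ D = 0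
    · right; exact h
    · left; exact ⟨D, h, rfl⟩
  -- the complement of `g⁻¹(S)` is dense
  obtain ⟨x₁, hx₁, hx₁'⟩ := hstd.ne
  have hsm : IsSmallSet (Cm (p + 1)) (g ⁻¹' S) :=
    ⟨hstd.small.1.preimage hfib.hol.continuous, H64.Gen.preimage_cov (fun z => hfib.hol z)
      ⟨x₁, hstd.proper.submersive x₁ hx₁⟩ hstd.small.cov⟩
  have hd : Dense (g ⁻¹' S)ᶜ := hsm.dense_compl
  obtain ⟨A, hA, hAH⟩ := exists_zero hfib.hol.continuous hd
    (hC p X Z g Δ S e₀ w Θ hfib hstd.small hstd.proper hstd.pos hstd.form)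
  have hAne : A ≠ univ := by
    intro hcon
    obtain ⟨H, hH⟩ := hC p X Z g Δ S e₀ w Θ hfib hstd.small hstd.proper hstd.pos hstd.form x₁
    have h1 := (hAH x₁ H hH).self_of_nhds.1 (hcon ▸ mem_univ x₁)
    have h2 := hH.2.self_of_nhds hx₁
    rw [h1, zero_mul] at h2
    rcases mul_eq_zero.1 h2 with h3 | h3
    · exact pow_ne_zero _ (jac_chart_ne_zero (mem_chart_source _ (g x₁))) h3
    · exact hx₁' h3
  have hAfin : {E : Set X | J.IsPrime (Cm (p + 1)) E ∧ E ⊆ A}.Finite :=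
    H969.Gen.fin (p + 1) X A (H511.Gen.isThinSet_of_analytic hA hAne)
  -- the orders
  have hO' : ∀ D, J.IsPrime (Cm p) D → ∀ E k o x, J.IsPrime (Cm (p + 1)) E →
      closure (g '' E) = D → GoodAt p g S w Θ E D k o x → 0 < k ∧ w * (k - 1) ≤ o := by
    intro D hD E k o x hE hED hG
    obtain ⟨k₀, o₀, h1, h2, -, -, h3⟩ := hO p X Z g Δ S e₀ w Θ hstd E D hE hD hED
    obtain ⟨rfl, rfl⟩ := h3 k o x hG
    exact ⟨h1, h2⟩
  have hnn : ∀ D, ∀ r ∈ mset p g S w Θ Δ D, 0 ≤ r := by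
    rintro D r ⟨E, k, o, x, -, -, -, rfl⟩
    have := hΔ0 E
    positivity
  have hone : ∀ D, J.IsPrime (Cm p) D → ∃ r ∈ mset p g S w Θ Δ D, r ≤ 1 := by
    intro D hD
    obtain ⟨E, k, o, x, hE, hED, hG, h⟩ := hle D hD
    refine ⟨_, ⟨E, k, o, x, hE, hED, hG, rfl⟩, ?_⟩
    have hk : (0 : ℝ) < k := by exact_mod_cast (hO' D hD E k o x hE hED hG).1
    rw [div_le_one hk]
    exact h
  have hmin : ∀ D, J.IsPrime (Cm p) D → ∃ m, IsLeast (mset p g S w Θ Δ D) m := by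
    intro D hD
    obtain ⟨r₀, hr₀, hr₀1⟩ := hone D hD
    by_cases h : ∃ r₁ ∈ mset p g S w Θ Δ D, r₁ < 1
    · obtain ⟨r₁, hr₁, hr₁1⟩ := h
      have hf := finite_le hΔ0 hr hstd.pos (hO' D hD) hr₁1
      obtain ⟨m, hm, hmle⟩ := hf.exists_minimal (s := _) ⟨r₁, hr₁, le_rfl⟩
      refine ⟨m, hm.1, fun r hrm => ?_⟩
      by_contra hlt
      rw [not_le] at hlt
      have h5 := hmle ⟨hrm, hlt.le.trans hm.2⟩ hlt.le
      linarith
    · push Not at h
      refine ⟨r₀, hr₀, fun r hrm => hr₀1.trans (h r hrm)⟩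
  have hval : ∀ D, J.IsPrime (Cm p) D → IsLeast (mset p g S w Θ Δ D) (Γ D) := by
    intro D hD
    obtain ⟨m, hm⟩ := hmin D hD
    have h1 : Γ D = m := by
      rw [hΓ]
      show (if J.IsPrime (Cm p) D then sInf (mset p g S w Θ Δ D) else 0) = m
      rw [if_pos hD]
      exact hm.csInf_eq
    rw [h1]
    exact hm
  have hnot : ∀ D, ¬ J.IsPrime (Cm p) D → Γ D = 0 := by
    intro D hD
    rw [hΓ]
    exact if_neg hD
  refine ⟨?_, ?_, ?_, fun D hD => ⟨(hval D hD).1, fun r hr => (hval D hD).2 hr⟩⟩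
  · refine ((hfin.union hAfin).image fun E => closure (g '' E)).subset ?_
    intro D hD
    have hDp : J.IsPrime (Cm p) D := by
      by_contra h
      exact hD (hnot D h)
    obtain ⟨E, k, o, x, hE, hED, hG, h⟩ := hle D hDp
    refine ⟨E, ?_, hED⟩
    by_contra hcon
    rw [mem_union, not_or] at hcon
    have h1 : Δ E = 0 := by
      by_contra h0
      exact hcon.1 h0
    have h2 : o = 0 := by
      by_contra h0
      exact hcon.2 ⟨hE, subset_zero hA hAH hE h0 hG⟩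
    apply hD
    have h3 : (0 : ℝ) ∈ mset p g S w Θ Δ D :=
      ⟨E, k, o, x, hE, hED, hG, by rw [h1, h2, Nat.cast_zero, zero_div, add_zero, zero_div]⟩
    exact le_antisymm ((hval D hDp).2 h3) (hnn D _ (hval D hDp).1)
  · intro D hD
    by_contra h
    exact hD (hnot D h)
  · intro D
    by_cases hD : J.IsPrime (Cm p) D
    · obtain ⟨E, k, o, x, hE, hED, hG, h⟩ := (hval D hD).1
      obtain ⟨q, hq, -, -⟩ := hrat E
      obtain ⟨r, hr, hr1⟩ := hone D hD
      have h1 : Γ D ≤ 1 := ((hval D hD).2 hr).trans hr1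
      have h0 : 0 ≤ Γ D := hnn D _ (hval D hD).1
      have h2 : Γ D = (((q + o / w) / k : ℚ) : ℝ) := by
        rw [h, hq]
        push_cast
        ring
      refine ⟨(q + o / w) / k, h2, ?_, ?_⟩
      · rw [h2] at h0
        exact_mod_cast h0
      · rw [h2] at h1
        exact_mod_cast h1
    · exact ⟨0, by rw [hnot D hD, Rat.cast_zero], le_rfl, zero_le_one⟩

end Vale.Agent.P281.H747.TM
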