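import Vale.Agent.P281.H740.TM.SpecR
import Vale.Agent.P281.MF.Fr
import Vale.Agent.P281.H713.FibB

/-!
# P281, project T-M (helper747): block R1, frames of the fibre
-/

open Set Filter Metric
open Vale.Agent.P281 Vale.Agent.P281.H713 Vale.Agent.P281.H713.TZ.S
open Vale.Agent.P281.MF (JP JP_left JP_comp JP_indep JP_ne_zero)
open scoped Manifold ContDiff Topology

noncomputable section

namespace Vale.Agent.P281.H747.TM

open Vale.Agent.P281.H740.TM

theorem exists_inv {V : Type} [NormedAddCommGroup V] [NormedSpace ℂ V] [FiniteDimensional ℂ V]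
    {D : V →L[ℂ] V} (h : D.det ≠ 0) :
    ∃ D' : V →L[ℂ] V, D'.comp D = ContinuousLinearMap.id ℂ V ∧ D'.det * D.det = 1 := by
  have h1 : IsUnit (D : V →ₗ[ℂ] V) :=
    (LinearMap.isUnit_iff_isUnit_det _).2 (isUnit_iff_ne_zero.2 h)
  obtain ⟨u, hu⟩ := h1
  have h2 : ((u⁻¹ : (V →ₗ[ℂ] V)ˣ) : V →ₗ[ℂ] V) * (D : V →ₗ[ℂ] V) = 1 := by
    rw [← hu]
    exact u.inv_mul
  refine ⟨LinearMap.toContinuousLinearMap ((u⁻¹ : (V →ₗ[ℂ] V)ˣ) : V →ₗ[ℂ] V), ?_, ?_⟩
  · ext v
    exact LinearMap.congr_fun h2 v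
  · have h3 := congrArg LinearMap.det h2
    rw [map_mul, map_one] at h3
    exact h3

/-- **R1** -/
theorem frameStmt : FrameStmt := by
  intro n q d X Y F _ _ _ _ _ _ _ _ _ e f i y hf hi hfi hfs hinj t₀
  set φ := chartAt (Cm n) (i t₀) with hφ
  set ψ := chartAt (Cm d) t₀ with hψ
  set F₁ : X → Cm q := fun x => chartAt (Cm q) y (f x) with hF₁
  set i₁ : F → Cm n := fun t => φ (i t) with hi₁
  set C : Cm q →L[ℂ] Cm q := dV (Cm q) (chartAt (Cm q) y : Y → Cm q) y with hC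
  have hC0 : C.det ≠ 0 := jac_chart_ne_zero (E := Cm q) (mem_chart_source (Cm q) y)
  have hfM : ∀ x, HolM (Cm n) (Cm q) f x := fun x => hf x
  have hiM : ∀ t, HolM (Cm d) (Cm n) i t := fun t => hi t
  -- `f` in the chart of `y`
  have hF₁h : ∀ t, HolV (Cm n) F₁ (i t) := fun t =>
    HolV.comp (E' := Cm q) (h := (chartAt (Cm q) y : Y → Cm q)) (f := f)
      (HolV.chart (E := Cm q) (by rw [hfi t]; exact mem_chart_source _ y)) (hfM (i t))
  have hF₁d : ∀ t, dV (Cm n) F₁ (i t) = C.comp (dM (Cm n) (Cm q) f (i t)) := by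
    intro t
    have h1 := dV_comp (E' := Cm q) (h := (chartAt (Cm q) y : Y → Cm q)) (f := f) (x := i t)
      (HolV.chart (E := Cm q) (by rw [hfi t]; exact mem_chart_source _ y)) (hfM (i t))
    rw [hfi t] at h1
    exact h1
  -- `i` in the chart
  have hi₁h : ∀ t, i t ∈ φ.source → HolV (Cm d) i₁ t := fun t ht =>
    HolV.comp (E' := Cm n) (h := (φ : X → Cm n)) (f := i) (HolV.chart (E := Cm n) ht) (hiM t)
  have hi₁d : ∀ t, i t ∈ φ.source → dV (Cm d) i₁ t =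
      (dV (Cm n) (φ : X → Cm n) (i t)).comp (dM (Cm d) (Cm n) i t) := fun t ht =>
    dV_comp (E' := Cm n) (h := (φ : X → Cm n)) (f := i) (HolV.chart (E := Cm n) ht) (hiM t)
  have hφ0 : i t₀ ∈ φ.source := mem_chart_source _ _
  have hψ0 : t₀ ∈ ψ.source := mem_chart_source _ _
  -- a left inverse at `t₀`
  set T₀ : Cm d →L[ℂ] Cm n :=
    (dV (Cm n) (φ : X → Cm n) (i t₀)).comp (dM (Cm d) (Cm n) i t₀) with hT₀
  have hT₀i : Function.Injective T₀ := by
    obtain ⟨B, hB⟩ := dV_chart_leftInv (E := Cm n) hφ0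
    intro a b hab
    apply hinj t₀
    have h1 := congrArg B hab
    have h2 : ∀ v, B ((dV (Cm n) (φ : X → Cm n) (i t₀)) v) = v := fun v =>
      congrArg (fun L : Cm n →L[ℂ] Cm n => L v) hB
    rw [hT₀, ContinuousLinearMap.comp_apply, ContinuousLinearMap.comp_apply, h2, h2] at h1
    exact h1
  obtain ⟨P₀, hP₀⟩ := LinearMap.exists_leftInverse_of_injective (T₀ : Cm d →ₗ[ℂ] Cm n)
    (LinearMap.ker_eq_bot.2 hT₀i)
  set P₁ : Cm n →L[ℂ] Cm d := LinearMap.toContinuousLinearMap P₀ with hP₁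
  have hP₁' : P₁.comp T₀ = ContinuousLinearMap.id ℂ (Cm d) := by
    ext1 v
    exact LinearMap.congr_fun hP₀ v
  -- numerator and denominator
  set A' : F → (Cm n →L[ℂ] Cm q) := fun t => fderiv ℂ (F₁ ∘ φ.symm) (φ (i t)) with hA'
  set J' : F → (Cm d →L[ℂ] Cm n) := fun t => fderiv ℂ (i₁ ∘ ψ.symm) (ψ t) with hJ'
  set num : F → ℂ := fun t => JP e (A' t) P₁ with hnum
  set den : F → ℂ := fun t => (P₁.comp (J' t)).det with hden
  have hA'h : HolV (Cm d) A' t₀ :=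
    HolV.comp_contDiff (G := fderiv ℂ (F₁ ∘ φ.symm)) (v := i₁)
      (((hF₁h t₀).rep hφ0).fderiv_right (m := ω) (by simp)) (hi₁h t₀ hφ0)
  have hJ'h : HolV (Cm d) J' t₀ :=
    HolV.comp_contDiff (G := fderiv ℂ (i₁ ∘ ψ.symm)) (v := (ψ : F → Cm d))
      (((hi₁h t₀ hφ0).rep hψ0).fderiv_right (m := ω) (by simp)) (HolV.chart hψ0)
  have hnumh : HolV (Cm d) num t₀ := by
    refine HolV.comp_contDiff (G := fun A : Cm n →L[ℂ] Cm q => JP e A P₁) (v := A') ?_ hA'h
    have h1 : (fun A : Cm n →L[ℂ] Cm q => JP e A P₁) = fun A =>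
        (((ContinuousLinearMap.inl ℂ (Cm q) (Cm d)).comp A +
          (ContinuousLinearMap.inr ℂ (Cm q) (Cm d)).comp P₁).comp
            (e.symm : (Cm q × Cm d) →L[ℂ] Cm n)).det := by
      funext A
      unfold MF.JP
      congr 1
      refine ContinuousLinearMap.ext fun v => ?_
      simp
    rw [h1]
    exact (contDiff_det (V := Cm q × Cm d)).contDiffAt.comp _
      (((contDiffAt_const.clm_comp contDiffAt_id).add contDiffAt_const).clm_comp contDiffAt_const)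
  have hdenh : HolV (Cm d) den t₀ :=
    HolV.comp_contDiff (G := fun A : Cm d →L[ℂ] Cm n => (P₁.comp A).det) (v := J')
      ((contDiff_det (V := Cm d)).contDiffAt.comp _ (contDiffAt_const.clm_comp contDiffAt_id)) hJ'h
  -- the identities
  have hR : ∀ t, i t ∈ φ.source → C.comp (dM (Cm n) (Cm q) f (i t)) =
      (A' t).comp (dV (Cm n) (φ : X → Cm n) (i t)) := by
    intro t ht
    rw [← hF₁d t]
    exact dV_eq_chart ht (hF₁h t)
  have hQ : ∀ t, i t ∈ φ.source → t ∈ ψ.source →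
      (dV (Cm n) (φ : X → Cm n) (i t)).comp (dM (Cm d) (Cm n) i t) =
        (J' t).comp (dV (Cm d) (ψ : F → Cm d) t) := by
    intro t ht ht'
    rw [← hi₁d t ht]
    exact dV_eq_chart ht' (hi₁h t ht)
  have hjψ : ∀ t, jac (Cm d) (ψ : F → Cm d) t = (dV (Cm d) (ψ : F → Cm d) t).det := fun t => rfl
  have hjφ : ∀ t, jac (Cm n) (φ : X → Cm n) (i t) = (dV (Cm n) (φ : X → Cm n) (i t)).det :=
    fun t => rfl
  have hden0 : den t₀ ≠ 0 := by
    intro h0
    have h1 : (P₁.comp T₀).det = 1 := by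
      rw [hP₁']
      exact LinearMap.det_id
    rw [hT₀, hQ t₀ hφ0 hψ0, ← ContinuousLinearMap.comp_assoc, clm_det_comp] at h1
    have h2 : (P₁.comp (J' t₀)).det = 0 := h0
    rw [h2, zero_mul] at h1
    exact zero_ne_one h1
  have e1 : ∀ᶠ t in 𝓝 t₀, i t ∈ φ.source :=
    hi.continuous.continuousAt.eventually (φ.open_source.mem_nhds hφ0)
  have e2 : ∀ᶠ t in 𝓝 t₀, t ∈ ψ.source := ψ.open_source.mem_nhds hψ0
  have e3 : ∀ᶠ t in 𝓝 t₀, den t ≠ 0 := hdenh.continuousAt.eventually_ne hden0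
  -- the formula
  have key : ∀ t, i t ∈ φ.source → t ∈ ψ.source → den t ≠ 0 →
      C.det * jf e f i t * jac (Cm d) (ψ : F → Cm d) t * den t =
        num t * jac (Cm n) (φ : X → Cm n) (i t) := by
    intro t ht ht' hd
    set A := dM (Cm n) (Cm q) f (i t) with hA
    set T := dM (Cm d) (Cm n) i t with hT
    set R := dV (Cm n) (φ : X → Cm n) (i t) with hRd
    set Q := dV (Cm d) (ψ : F → Cm d) t with hQd
    have h1 : C.comp A = (A' t).comp R := hR t ht
    have h2 : R.comp T = (J' t).comp Q := hQ t ht ht'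
    have hQ0 : Q.det ≠ 0 := jac_chart_ne_zero (E := Cm d) ht'
    have hDd : (P₁.comp (R.comp T)).det = den t * Q.det := by
      rw [h2, ← ContinuousLinearMap.comp_assoc, clm_det_comp]
    obtain ⟨D', hD', hD'd⟩ := exists_inv (D := P₁.comp (R.comp T)) (by
      rw [hDd]; exact mul_ne_zero hd hQ0)
    have hP2 : ((D'.comp P₁).comp R).comp T = ContinuousLinearMap.id ℂ (Cm d) := by
      rw [← hD']
      rfl
    set P := Classical.epsilon fun P : Cm n →L[ℂ] Cm d =>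
      P.comp (mfderiv 𝓘(ℂ, Cm d) 𝓘(ℂ, Cm n) i t : Cm d →L[ℂ] Cm n) =
        ContinuousLinearMap.id ℂ _ with hP
    have hP3 : P.comp T = ContinuousLinearMap.id ℂ (Cm d) :=
      Classical.epsilon_spec (p := fun P : Cm n →L[ℂ] Cm d =>
        P.comp (mfderiv 𝓘(ℂ, Cm d) 𝓘(ℂ, Cm n) i t : Cm d →L[ℂ] Cm n) =
          ContinuousLinearMap.id ℂ _) ⟨_, hP2⟩
    have h3 : jf e f i t = JP e A ((D'.comp P₁).comp R) :=
      JP_indep e (t := T) (fun v => dM_fibre hfM hiM hfi t v)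
        (fun v => congrArg (fun L : Cm d →L[ℂ] Cm d => L v) hP2)
        (fun v => congrArg (fun L : Cm d →L[ℂ] Cm d => L v) hP3)
    have h4 := JP_left e A ((D'.comp P₁).comp R) C (ContinuousLinearMap.id ℂ (Cm d))
    have h5 := JP_comp e (A' t) (D'.comp P₁) R
    have h6 := JP_left e (A' t) P₁ (ContinuousLinearMap.id ℂ (Cm q)) D'
    have hid : (ContinuousLinearMap.id ℂ (Cm d)).det = 1 := LinearMap.det_id
    have hid' : (ContinuousLinearMap.id ℂ (Cm q)).det = 1 := LinearMap.det_id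
    rw [ContinuousLinearMap.id_comp, h1, hid, mul_one, ← h3] at h4
    rw [ContinuousLinearMap.id_comp, hid', one_mul] at h6
    rw [← h4, hjψ, hjφ, h5, h6]
    rw [hDd] at hD'd
    show D'.det * JP e (A' t) P₁ * R.det * Q.det * den t = JP e (A' t) P₁ * R.det
    linear_combination (JP e (A' t) P₁ * R.det) * hD'd
  have hnum0 : num t₀ ≠ 0 := by
    intro h0
    have h1 := key t₀ hφ0 hψ0 hden0
    rw [h0, zero_mul] at h1
    have h2 : jf e f i t₀ ≠ 0 := by
      obtain ⟨P2, hP2⟩ : ∃ P : Cm n →L[ℂ] Cm d,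
          P.comp (mfderiv 𝓘(ℂ, Cm d) 𝓘(ℂ, Cm n) i t₀ : Cm d →L[ℂ] Cm n) =
            ContinuousLinearMap.id ℂ _ :=
        ⟨P₁.comp (dV (Cm n) (φ : X → Cm n) (i t₀)), hP₁'⟩
      have hP3 := Classical.epsilon_spec (p := fun P : Cm n →L[ℂ] Cm d =>
        P.comp (mfderiv 𝓘(ℂ, Cm d) 𝓘(ℂ, Cm n) i t₀ : Cm d →L[ℂ] Cm n) =
          ContinuousLinearMap.id ℂ _) ⟨P2, hP2⟩
      exact JP_ne_zero e (t := dM (Cm d) (Cm n) i t₀) (fun v => dM_fibre hfM hiM hfi t₀ v)
        (fun v => congrArg (fun L : Cm d →L[ℂ] Cm d => L v) hP3) (hfs t₀)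
    exact mul_ne_zero (mul_ne_zero (mul_ne_zero hC0 h2)
      (jac_chart_ne_zero (E := Cm d) hψ0)) hden0 h1
  refine ⟨fun t => num t / (C.det * den t), ?_, div_ne_zero hnum0 (mul_ne_zero hC0 hden0), ?_⟩
  · exact ContMDiffAt.div₀ hnumh (contMDiffAt_const.mul hdenh) (mul_ne_zero hC0 hden0)
  · filter_upwards [e1, e2, e3] with t h1 h2 h3
    have h4 := key t h1 h2 h3
    have h5 : C.det * den t ≠ 0 := mul_ne_zero hC0 h3
    rw [div_mul_eq_mul_div, eq_div_iff h5, ← h4]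
    ring

end Vale.Agent.P281.H747.TM
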